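import Vale.Agent.P167.H174.BD.Wk

/-!
# P167, general `q`, [BAD], (B3): the banks

The bank of the colour `c` is joined, in the slit domain, to the point `t0 p c` next to the start:
along the wired edges of the polygon (`c = true`), along the exterior darts of the free arc
(`c = false`), along the side of the path (both colours).
-/

set_option autoImplicit false
set_option linter.unusedVariables false
set_option linter.unusedSectionVars false

open Set Metric Relation

namespace Vale.Agent.P167.H991.B3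

open Vale.Agent.P167.E6 Vale.Agent.P167.E2 Vale.Agent.P167.Fjord
open Vale.Agent.P167.H166 Vale.Agent.P167.H531.K
open Vale.Agent.P167.H174.BD (BN)

variable {n : ℕ} {p : ZMod n → ℤ × ℤ} {S : Finset (ℤ × ℤ)} {k : ℕ} {A : Finset (Sym2 (ℤ × ℤ))}
  {M : ℕ} {δ : ℝ}

/-- The end point of the bank `c`. -/
noncomputable def t0 (p : ZMod n → ℤ × ℤ) (c : Bool) : ℂ :=
  if c then pt (p (-1)) else cpt (5 / 16) (adv (cs p))

theorem cast_last (hn : 0 < n) : ((n - 1 : ℕ) : ZMod n) = -1 := by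
  rw [Nat.cast_sub (by omega)]
  simp

section

variable (hp : IsPolygon p) (hS : Encloses p S) (hk : k + 1 < n) (hA : A ⊆ edges S)
include hp hS hk hA

omit hS hA in
theorem ne_cs {i : ℕ} (hi : i < k) {d : Medial} (hd : d.1 = p (i : ℕ)) : d ≠ cs p := by
  intro h
  have h1 : p (i : ℕ) = p (-1) := by
    rw [← hd, h]
    rfl
  have h2 := hp.2.1 h1
  have h3 : ((i : ℕ) : ZMod n) = ((n - 1 : ℕ) : ZMod n) := by
    rw [h2, cast_last (by omega)]
  have := cast_inj (by omega) (by omega) (by omega) h3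
  omega

omit hS hk hA in
theorem adv_ro (i : ZMod n) : adv (p i, ro p i - 1) = (p (i + 1), ri p (i + 1)) := by
  have h1 : ro p i - 1 - 1 = ri p (i + 1) := by
    rw [ri, add_sub_cancel_right]
    generalize ro p i = r
    revert r
    decide
  show (p i + dir (ro p i - 1 + 1), ro p i - 1 - 1) = _
  rw [fin4_1, ← ro_spec hp, h1]

/-- Along an open edge. -/
theorem open_step (hδ : 0 < δ) (hM : M ≤ len p k A) {V : Set ℂ} {c : Medial}
    (h1 : ahead c ∈ wiredOpen p k A) (hV : nbh c ⊆ V) :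
    JoinedIn ((O1 (S : Set (ℤ × ℤ)) \ zM p k A δ M) ∩ V) (pt c.1) (pt (adv c).1) := by
  have hO := obs (S := S) hp hS hA hδ hM
  have he : ahead c ∈ edges S := wired_sub hp hS hA h1
  have g1 := sB hO he (fun hh => e_closed hh (Or.inl ⟨rfl, rfl⟩) h1)
    (fun hh => e_closed hh (Or.inr ⟨rfl, rfl⟩) h1)
  have g2 := sB hO (c := par c) (by rw [ahead_par]; exact he)
    (fun hh => e_closed hh (Or.inl ⟨rfl, rfl⟩) (by rw [ahead_par]; exact h1))
    (fun hh => e_closed hh (Or.inr ⟨rfl, rfl⟩) (by rw [ahead_par]; exact h1))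
  have e1 : Fjord.em (par c) = Fjord.em c := em_congr (ahead_par c)
  have e2 : (par c).1 = (adv c).1 := rfl
  rw [e1, e2] at g2
  exact (ind_le g1 ((seg_nbh (pt_nbh c) (em_nbh c)).trans hV)).trans
    (ind_le g2 ((seg_nbh (adv_nbh c) (em_nbh c)).trans hV)).symm

/-- The wired arc. -/
theorem bank_true (hδ : 0 < δ) (hM : M ≤ len p k A) {V : Set ℂ} : ∀ (m i : ℕ), i + m + 1 = n →
    k ≤ i → (∀ t : ℕ, i ≤ t → t < n → closedBall (pt (p (t : ℕ))) 2 ⊆ V) →
    JoinedIn ((O1 (S : Set (ℤ × ℤ)) \ zM p k A δ M) ∩ V) (pt (p (i : ℕ))) (pt (p (-1))) := by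
  intro m
  induction m with
  | zero =>
    intro i hi hki hV
    have hi' : ((i : ℕ) : ZMod n) = -1 := by
      rw [← cast_last (n := n) (by omega)]
      congr 1
      omega
    have h2 := hV i le_rfl (by omega)
    rw [hi'] at h2 ⊢
    exact JoinedIn.refl ⟨pt_free hp hS hk hA hδ hM (p_mem_verts hp hS _),
      h2 (mem_closedBall_self (by norm_num))⟩
  | succ m ih =>
    intro i hi hki hV
    have h1 : ahead (p (i : ℕ), ro p (i : ℕ) - 1) ∈ wiredOpen p k A := by
      refine Or.inr ⟨i, hki, by omega, ?_⟩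
      rw [ahead]
      simp only [fin4_1]
      rw [← ro_spec hp]
    have h2 := open_step hp hS hk hA hδ hM h1 (V := V) (hV i le_rfl (by omega))
    rw [adv_ro hp] at h2
    refine h2.trans ?_
    have h3 := ih (i + 1) (by omega) (by omega) fun t h4 h5 => hV t (by omega) h5
    push_cast at h3
    exact h3

omit hp hS hk hA in
theorem f4_ofNat : ∀ a b : Fin 4, b + Fin.ofNat 4 (a - b).val = a := by decide

omit hp hS hk hA in
theorem f4_zero : ∀ a : Fin 4, a + Fin.ofNat 4 0 = a := by decide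

omit hp hS hk hA in
theorem f4_succ (a : Fin 4) {t : ℕ} (ht : t < 4) :
    a + Fin.ofNat 4 t + 1 = a + Fin.ofNat 4 (t + 1) := by
  interval_cases t <;> revert a <;> decide

/-- Around a vertex of the free arc, outside. -/
theorem ext_arc (hδ : 0 < δ) (hM : M ≤ len p k A) {V : Set ℂ} {i : ℕ} (hi : i < k)
    (hV : closedBall (pt (p (i : ℕ))) 2 ⊆ V) : ∀ t : ℕ,
    t < (ro p (i : ℕ) - ri p (i : ℕ)).val →
    JoinedIn ((O1 (S : Set (ℤ × ℤ)) \ zM p k A δ M) ∩ V)
      (cpt (5 / 16) (p (i : ℕ), ri p (i : ℕ) + Fin.ofNat 4 t))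
      (cpt (5 / 16) (p (i : ℕ), ri p (i : ℕ))) := by
  have hO := obs (S := S) hp hS hA hδ hM
  have hω := wired_sub (k := k) hp hS hA
  intro t
  induction t with
  | zero =>
    intro _
    rw [f4_zero]
    exact JoinedIn.refl ⟨c516_free hp hS hA hδ hM (p_mem_verts hp hS _) (ne_cs hp hk hi rfl),
      hV (cpt_nbh (by norm_num) (by norm_num) (p (i : ℕ), ri p (i : ℕ)))⟩
  | succ t ih =>
    intro ht
    refine JoinedIn.trans ?_ (ih (by omega))
    have h3 : t < 4 := by omega
    obtain ⟨h1, h2⟩ := val_aux (ro p (i : ℕ)) (ri p (i : ℕ)) t (by omega) ht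
    have h4 := not_open_ext hω ((ext_iff hp hS).2 h2) ((ext_iff hp hS).2 h1)
    have h5 := sE hO (c := (p (i : ℕ), ri p (i : ℕ) + Fin.ofNat 4 t)) (p_mem_verts hp hS _)
      (fun x y hxy hF => h4 (e_open hxy hF)) (ne_cs hp hk hi rfl) (ne_cs hp hk hi rfl)
    have h6 : rot (p (i : ℕ), ri p (i : ℕ) + Fin.ofNat 4 t) =
        (p (i : ℕ), ri p (i : ℕ) + Fin.ofNat 4 (t + 1)) := by
      show (p (i : ℕ), ri p (i : ℕ) + Fin.ofNat 4 t + 1) = _
      rw [f4_succ _ h3]
    have h7 := (ind_le h5 ((seg_nbh (cpt_nbh (by norm_num) (by norm_num) _)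
      (crot_nbh (by norm_num) (by norm_num) _)).trans hV)).symm
    rw [h6] at h7
    exact h7

/-- The free arc. -/
theorem bank_false (hδ : 0 < δ) (hM : M ≤ len p k A) {V : Set ℂ} : ∀ i : ℕ, i < k →
    (∀ t ≤ i, closedBall (pt (p (t : ℕ))) 2 ⊆ V) → ∀ r, face (p (i : ℕ)) r ∉ S →
    JoinedIn ((O1 (S : Set (ℤ × ℤ)) \ zM p k A δ M) ∩ V) (cpt (5 / 16) (p (i : ℕ), r))
      (cpt (5 / 16) (adv (cs p))) := by
  have hO := obs (S := S) hp hS hA hδ hM
  intro i
  induction i with
  | zero =>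
    intro h0 hV r hr
    have h1 := ext_arc hp hS hk hA hδ hM h0 (hV 0 le_rfl) _ ((ext_iff hp hS).1 hr)
    rw [f4_ofNat] at h1
    have h2 : adv (cs p) = (p ((0 : ℕ) : ZMod n), ri p ((0 : ℕ) : ZMod n)) := by
      unfold cs
      rw [adv_ro hp, neg_add_cancel, Nat.cast_zero]
    rw [h2]
    exact h1
  | succ i ih =>
    intro h0 hV r hr
    have h1 := ext_arc hp hS hk hA hδ hM h0 (hV (i + 1) le_rfl) _ ((ext_iff hp hS).1 hr)
    rw [f4_ofNat] at h1
    refine h1.trans ?_
    have he : ahead (p (i : ℕ), ro p (i : ℕ) - 1) ∈ edges S := by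
      rw [ahead]
      simp only [fin4_1]
      rw [← ro_spec hp]
      exact p_edge hp hS _
    have h2 : adv (p (i : ℕ), ro p (i : ℕ) - 1) =
        (p ((i + 1 : ℕ) : ZMod n), ri p ((i + 1 : ℕ) : ZMod n)) := by
      rw [adv_ro hp]
      push_cast
      rfl
    have h3 := sD hO he (ne_cs hp hk (i := i) (by omega) rfl)
      (by rw [h2]; exact ne_cs hp hk h0 rfl)
    have h4 := (ind_le h3 ((seg_nbh (cpt_nbh (by norm_num) (by norm_num) _)
      (cadv_nbh (by norm_num) (by norm_num) _)).trans (hV i (by omega)))).symm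
    rw [h2] at h4
    exact h4.trans (ih (by omega) (fun t ht => hV t (by omega)) _ (enc_out hp hS).2)

omit hp hS hk hA in
theorem cpar_nbh {θ : ℝ} (h0 : 0 ≤ θ) (h1 : θ ≤ 1) (c : Medial) : cpt θ (par c) ∈ nbh c := by
  obtain ⟨v, r⟩ := c
  revert r
  refine forall4 ?_ ?_ ?_ ?_
  · rw [show par (v, 0) = ((v.1, v.2 + 1), 2) by
      simp only [par]; ext <;> simp [dir, show (0 : Fin 4) + 1 = 1 from rfl]]
    refine coord_nbh ?_ ?_ <;> simp only [cpt_2] <;> push_cast <;> rw [abs_le] <;>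
      constructor <;> linarith
  · rw [show par (v, 1) = ((v.1 - 1, v.2), 3) by
      simp only [par]; ext <;> simp [dir, show (1 : Fin 4) + 1 = 2 from rfl,
        show (1 : Fin 4) + 2 = 3 from rfl, sub_eq_add_neg]]
    refine coord_nbh ?_ ?_ <;> simp only [cpt_3] <;> push_cast <;> rw [abs_le] <;>
      constructor <;> linarith
  · rw [show par (v, 2) = ((v.1, v.2 - 1), 0) by
      simp only [par]; ext <;> simp [dir, show (2 : Fin 4) + 1 = 3 from rfl,
        show (2 : Fin 4) + 2 = 0 from rfl, sub_eq_add_neg]]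
    refine coord_nbh ?_ ?_ <;> simp only [cpt_0] <;> push_cast <;> rw [abs_le] <;>
      constructor <;> linarith
  · rw [show par (v, 3) = ((v.1 + 1, v.2), 1) by
      simp only [par]; ext <;> simp [dir, show (3 : Fin 4) + 1 = 0 from rfl,
        show (3 : Fin 4) + 2 = 1 from rfl]]
    refine coord_nbh ?_ ?_ <;> simp only [cpt_1] <;> push_cast <;> rw [abs_le] <;>
      constructor <;> linarith

/-- The first step. -/
theorem bank_start (hδ : 0 < δ) (hM : M ≤ len p k A) (h0 : 0 < k) (c : Bool) {V : Set ℂ}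
    (hV : nbh (cs p) ⊆ V) :
    JoinedIn ((O1 (S : Set (ℤ × ℤ)) \ zM p k A δ M) ∩ V) (sid c (run p k A 1)) (t0 p c) := by
  have hO := obs (S := S) hp hS hA hδ hM
  have hcs : ∀ c' : Medial, c'.1 = p 0 → c' ≠ cs p := fun c' hc' =>
    ne_cs hp hk (i := 0) h0 (by rw [hc', Nat.cast_zero])
  have h1 : (adv (cs p)).1 = p 0 := by
    unfold cs
    rw [adv_ro hp, neg_add_cancel]
  have h2 : (par (cs p)).1 = p 0 := h1
  rw [run_succ, run_zero]
  by_cases ho : ahead (cs p) ∈ wiredOpen p k A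
  · rw [next_open ho]
    cases c
    · show JoinedIn _ (cpt (5 / 16) (adv (cs p))) (cpt (5 / 16) (adv (cs p)))
      exact JoinedIn.refl ⟨c516_free hp hS hA hδ hM (by rw [h1]; exact p_mem_verts hp hS _)
        (hcs _ h1), hV (cadv_nbh (by norm_num) (by norm_num) _)⟩
    · exact (open_step hp hS hk hA hδ hM ho hV).symm
  · rw [next_closed ho]
    cases c
    · show JoinedIn _ (cpt (5 / 16) (rot (cs p))) (cpt (5 / 16) (adv (cs p)))
      have hf : fc (rot (cs p)) ∈ S := by
        show face (p (-1)) (ro p (-1) - 1 + 1) ∈ S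
        rw [sub_add_cancel]
        exact (enc_out hp hS).1
      have hf' : fc (par (cs p)) = fc (rot (cs p)) := by rw [← adv_par, fc_advI]
      have hr : rot (cs p) ≠ cs p := by
        intro h
        have h3 := congrArg Prod.snd h
        simp only [rot, cs] at h3
        revert h3
        generalize ro p (-1) = r
        revert r
        decide
      have g1 := sH hO hf hr
      have g2 := sH hO (c := par (cs p)) (by rw [hf']; exact hf) (hcs _ h2)
      have g3 := sE hO (c := par (cs p)) (by rw [h2]; exact p_mem_verts hp hS _)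
        (fun x y hxy hF => ho (by rw [← ahead_par]; exact e_open hxy hF)) (hcs _ h2) (hcs _ h2)
      rw [hf'] at g2
      have hrp : rot (par (cs p)) = adv (cs p) := by
        show ((cs p).1 + dir ((cs p).2 + 1), (cs p).2 + 2 + 1) = _
        have h3 : ∀ r : Fin 4, r + 2 + 1 = r - 1 := by decide
        rw [h3]
        rfl
      rw [hrp] at g3
      have n1 : cpt (5 / 16) (rot (cs p)) ∈ nbh (cs p) := crot_nbh (by norm_num) (by norm_num) _
      have n2 : ctr (fc (rot (cs p))) ∈ nbh (cs p) := ctr_nbh (rot (cs p))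
      have n3 : cpt (5 / 16) (par (cs p)) ∈ nbh (cs p) := cpar_nbh (by norm_num) (by norm_num) _
      have n4 : cpt (5 / 16) (adv (cs p)) ∈ nbh (cs p) := cadv_nbh (by norm_num) (by norm_num) _
      exact ((ind_le g1 ((seg_nbh n1 n2).trans hV)).trans
        (ind_le g2 ((seg_nbh n3 n2).trans hV)).symm).trans (ind_le g3 ((seg_nbh n3 n4).trans hV))
    · show JoinedIn _ (pt (rot (cs p)).1) (pt (p (-1)))
      exact JoinedIn.refl ⟨pt_free hp hS hk hA hδ hM (p_mem_verts hp hS _), hV (pt_nbh (cs p))⟩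

/-- **Along the path.** -/
theorem path_bank (hδ : 0 < δ) (hM : M ≤ len p k A) (h0 : 0 < k) (c : Bool) {V : Set ℂ} {l : ℕ}
    (hl0 : 1 ≤ l) (hl : l ≤ M) (hV : ∀ i ≤ l, nbh (run p k A i) ⊆ V) :
    JoinedIn ((O1 (S : Set (ℤ × ℤ)) \ zM p k A δ M) ∩ V) (sid c (run p k A l)) (t0 p c) := by
  have hne : run p k A 1 ≠ cs p := by
    intro h3
    rw [← run_zero (p := p) (k := k) (A := A)] at h3
    have := run_inj' hp hS hk hA 1 (by omega) 0 (Nat.zero_le _) h3
    omega
  exact (side_join hp hS hk hA hδ hM c one_pos l hl0 hl (fun i _ h2 => hV i h2.le)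
    ⟨sid_free hp hS hk hA hδ hM c (run_mem hp hS hA _) hne,
      hV 1 hl0 (sid_nbh c _)⟩).symm.trans
    (bank_start hp hS hk hA hδ hM h0 c (by rw [← run_zero (p := p) (k := k) (A := A)]
                                           exact hV 0 (Nat.zero_le _)))

/-- **A dart of the path.** -/
theorem wall_path (hδ : 0 < δ) (hM : M ≤ len p k A) (h0 : 0 < k) (c : Bool) {V : Set ℂ} {l : ℕ}
    (hl : l ≤ M) (hV : ∀ i ≤ l, nbh (run p k A i) ⊆ V)
    (hne : ndm S c (run p k A l) ≠ .O (cs p)) :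
    JoinedIn ((O1 (S : Set (ℤ × ℤ)) \ zM p k A δ M) ∩ V) (ps (ndm S c (run p k A l)))
      (t0 p c) := by
  rcases Nat.eq_zero_or_pos l with rfl | hl0
  · cases c
    · exfalso
      apply hne
      rw [run_zero]
      unfold ndm
      rw [if_neg Bool.false_ne_true, if_neg (fc_cs hp hS)]
    · exact JoinedIn.refl ⟨pt_free hp hS hk hA hδ hM (p_mem_verts hp hS _),
        hV 0 le_rfl (by rw [run_zero]; exact pt_nbh (cs p))⟩
  · have hne' : run p k A l ≠ cs p := by
      intro h3
      rw [← run_zero (p := p) (k := k) (A := A)] at h3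
      have := run_inj' hp hS hk hA l (by omega) 0 (Nat.zero_le _) h3
      omega
    exact (side_node hp hS hk hA hδ hM c (run_mem hp hS hA _) hne' (hV l le_rfl)).symm.trans
      (path_bank hp hS hk hA hδ hM h0 c hl0 hl hV)

/-- **A boundary node.** -/
theorem wall_bd (hδ : 0 < δ) (hM : M ≤ len p k A) {c : Bool} {V : Set ℂ} {i : ℕ} (hi : i < n)
    {dd : Medial} (hd : dd.1 = p (i : ℕ)) (hf : fc dd ∉ S) (hc : k ≤ i ↔ c = true)
    (hVt : c = true → ∀ t : ℕ, i ≤ t → t < n → closedBall (pt (p (t : ℕ))) 2 ⊆ V)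
    (hVf : c = false → ∀ t ≤ i, closedBall (pt (p (t : ℕ))) 2 ⊆ V) :
    JoinedIn ((O1 (S : Set (ℤ × ℤ)) \ zM p k A δ M) ∩ V) (ps (ndm S c dd)) (t0 p c) := by
  cases c
  · have h1 : i < k := by
      by_contra h
      exact Bool.false_ne_true (hc.1 (not_lt.1 h))
    have h2 : ps (ndm S false dd) = cpt (5 / 16) dd := by
      unfold ndm
      rw [if_neg Bool.false_ne_true, if_neg hf]
      rfl
    rw [h2]
    obtain ⟨v, r⟩ := dd
    subst hd
    exact bank_false hp hS hk hA hδ hM i h1 (hVf rfl) r hf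
  · have h1 : k ≤ i := hc.2 rfl
    show JoinedIn _ (pt dd.1) (pt (p (-1)))
    rw [hd]
    exact bank_true hp hS hk hA hδ hM (n - 1 - i) i (by omega) h1 (hVt rfl)

end

end Vale.Agent.P167.H991.B3
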